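import Vale.Agent.P108L5.Main

/-!
# P108: Sinai's conjecture, with the entropy as a supremum of limits over finite partitions
-/

open MeasureTheory

namespace Vale.Agent.Results.P108.ALimit

open Vale.Agent.P108.Tor Vale.Agent.P108L

/-- The standard map `f_k` preserves the normalized area `m` of the torus; the limit `h_m(f_k, P)`
exists for every finite partition `P`; `h_m(f_{-k}) = h_m(f_k)`; the set of parameters with
positive entropy has positive Lebesgue measure, and it contains all `k` with `|k|` large. -/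
theorem result :
    (∀ k x y : ℝ, stdMap k ((x : UnitAddCircle), (y : UnitAddCircle)) =
      (((x + y + k * Real.sin (2 * Real.pi * x) : ℝ) : UnitAddCircle),
        ((y + k * Real.sin (2 * Real.pi * x) : ℝ) : UnitAddCircle))) ∧
    IsProbabilityMeasure (volume : Measure (UnitAddCircle × UnitAddCircle)) ∧
    (∀ k : ℝ, MeasurePreserving (stdMap k) volume volume) ∧
    (∀ (k : ℝ) (d : ℕ) (P : Fin d → Set (UnitAddCircle × UnitAddCircle)), IsPartition P →
      ∃ h : ℝ, IsRate volume (stdMap k) P h) ∧
    (∀ k : ℝ, hKS volume (stdMap (-k)) = hKS volume (stdMap k)) ∧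
    0 < volume {k : ℝ | 0 < hKS volume (stdMap k)} ∧
    ∃ k₀ : ℝ, ∀ k : ℝ, k₀ ≤ |k| → 0 < hKS volume (stdMap k) ∧
      ENNReal.ofReal (Real.log |k| / 400) ≤ hKS volume (stdMap k) := by
  have p : IsProbabilityMeasure (volume : Measure (UnitAddCircle × UnitAddCircle)) := by
    have : IsProbabilityMeasure (volume : Measure UnitAddCircle) := ⟨UnitAddCircle.measure_univ⟩
    exact Measure.prod.instIsProbabilityMeasure _ _
  obtain ⟨h1, k₀, h2⟩ := ks_form (d := 400) (by norm_num) sinai sinai_ks
  simp only [fun k => hKS_eq (mp_stdMap k)]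
  exact ⟨stdMap_coe, p, mp_stdMap, fun k _ _ => rate (mp_stdMap k), ksEntropy_neg, h1, k₀,
    fun k hk => ⟨(h2 k hk).1, (h2 k hk).2.1⟩⟩

end Vale.Agent.Results.P108.ALimit
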